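import Vale.Agent.P331R45.Main

/-!
# One sample per element, almighty adversary: the model with random variables
-/

namespace Vale.Agent.Results.P331.ARandomVariables

open Vale.Agent.P331 Vale.Agent.P331R
open scoped ENNReal

/-- There is an absolute constant `c > 0` such that every finite matroid `M` has a measurable
online rule with one sample per element that is `c`-competitive against the almighty adversary
(samples, values and seed are random variables on any probability space), and even against every
order depending on the outcome; `c ≤ c^*(M)`; and being competitive in this model is the same as
in the model with product measures. -/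
theorem result : ∃ c : ℝ, 0 < c ∧ ∀ (E : Type) [Fintype E] (M : Matroid E), M.E = Set.univ →
    (∃ R : OnlineRule M, Competitive R (ENNReal.ofReal c) ∧ CompetitiveAny R (ENNReal.ofReal c)) ∧
      ENNReal.ofReal c ≤ bestRatio M ∧
      ∀ (R : OnlineRule M) (a : ℝ≥0∞), Competitive R a ↔ R.IsCompetitive a :=
  Vale.Agent.P331R.main

end Vale.Agent.Results.P331.ARandomVariables
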